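import Vale.Agent.P066.Theta.Comb.Chain

/-!
# The trace formula for the products of the `E_d` (block S6b)
-/

set_option autoImplicit false

open Finset

namespace Vale.Agent.P066.Theta.S6b

noncomputable section

open QSeries

variable {N k : ℕ}

/-! ### Lemma 0 -/

theorem wE_eq (k : ℕ) (a b : Fin N) : wE k ((a : ℕ) + 1) ((b : ℕ) + 1) =
    (if (b : ℕ) < a ∧ (a : ℕ) ≤ b + k then 1 else 0) -
      (if (a : ℕ) < b ∧ (b : ℕ) ≤ a + k then 1 else 0) := by
  unfold wE
  rw [if_neg (by omega)]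
  split_ifs <;> omega

theorem net_eq (p : Fin N → ℕ) (a : Fin N) : net k p a =
    ((∑ b ∈ univ.filter (fun b : Fin N => (b : ℕ) < a ∧ (a : ℕ) ≤ b + k), p b : ℕ) : ℤ) -
      ((∑ b ∈ univ.filter (fun b : Fin N => (a : ℕ) < b ∧ (b : ℕ) ≤ a + k), p b : ℕ) : ℤ) := by
  unfold net
  simp only [wE_eq, mul_sub, Finset.sum_sub_distrib, mul_ite, mul_one, mul_zero]
  rw [← Finset.sum_filter, ← Finset.sum_filter]
  push_cast
  rfl

/-- Lemma 0: the conditions (star) and `ω(ε_i, γ) ≥ 0` for greedy `i` characterize the `p_λ`. -/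
theorem lemma0 (hk : 1 ≤ k) (p : Fin N → ℕ)
    (hnet : ∀ i : Fin N, (k + 1) ∣ (i : ℕ) → 0 ≤ net k p i)
    (hstar : ∀ j j' : Fin N, (j' : ℕ) + 1 = j → net k p j - net k p j' ≤ (p j' : ℤ)) :
    ∃ lam : ℕ → ℕ, Antitone lam ∧ p = pExp k lam := by
  classical
  -- `p = 0` off the greedy vertices
  have hzero : ∀ m : ℕ, ∀ b : Fin N, (b : ℕ) < (k + 1) * m → ¬ (k + 1) ∣ (b : ℕ) → p b = 0 := by
    intro m
    induction m with
    | zero => intro b hb; omega
    | succ m ih =>
      intro b hb hnd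
      by_cases hbm : (b : ℕ) < (k + 1) * m
      · exact ih b hbm hnd
      · have hb' : (k + 1) * m < (b : ℕ) := by
          rcases Nat.lt_or_ge ((k + 1) * m) b with h | h
          · exact h
          · exfalso
            apply hnd
            have : (b : ℕ) = (k + 1) * m := by omega
            rw [this]
            exact Dvd.intro m rfl
        have hbk : (b : ℕ) ≤ (k + 1) * m + k := by
          rw [Nat.mul_succ] at hb
          omega
        have hlt : (k + 1) * m < N := lt_trans hb' b.2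
        have h1 := hnet ⟨(k + 1) * m, hlt⟩ (Dvd.intro m rfl)
        rw [net_eq] at h1
        have h2 : ∑ c ∈ univ.filter (fun c : Fin N => (c : ℕ) < (⟨(k + 1) * m, hlt⟩ : Fin N) ∧
            ((⟨(k + 1) * m, hlt⟩ : Fin N) : ℕ) ≤ c + k), p c = 0 := by
          refine Finset.sum_eq_zero fun c hc => ?_
          obtain ⟨-, hc1, hc2⟩ := Finset.mem_filter.1 hc
          simp only at hc1 hc2
          refine ih c hc1 ?_
          rintro ⟨y, hy⟩
          rw [hy] at hc1 hc2
          have h3 : y < m := lt_of_mul_lt_mul_left hc1 (Nat.zero_le _)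
          have h4 : (k + 1) * (y + 1) ≤ (k + 1) * m := Nat.mul_le_mul_left _ h3
          rw [Nat.mul_succ] at h4
          omega
        rw [h2] at h1
        have h5 : ∑ c ∈ univ.filter (fun c : Fin N =>
            ((⟨(k + 1) * m, hlt⟩ : Fin N) : ℕ) < c ∧
            (c : ℕ) ≤ (⟨(k + 1) * m, hlt⟩ : Fin N) + k), p c = 0 := by
          push_cast at h1
          have : (0 : ℤ) ≤ ∑ c ∈ univ.filter (fun c : Fin N =>
            ((⟨(k + 1) * m, hlt⟩ : Fin N) : ℕ) < c ∧
            (c : ℕ) ≤ (⟨(k + 1) * m, hlt⟩ : Fin N) + k), (p c : ℤ) :=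
            Finset.sum_nonneg fun _ _ => by positivity
          have h6 : ∑ c ∈ univ.filter (fun c : Fin N =>
            ((⟨(k + 1) * m, hlt⟩ : Fin N) : ℕ) < c ∧
            (c : ℕ) ≤ (⟨(k + 1) * m, hlt⟩ : Fin N) + k), (p c : ℤ) = 0 := by linarith
          exact_mod_cast h6
        exact Finset.sum_eq_zero_iff.1 h5 b (Finset.mem_filter.2 ⟨mem_univ _, hb', hbk⟩)
  have hz : ∀ b : Fin N, ¬ (k + 1) ∣ (b : ℕ) → p b = 0 := fun b =>
    hzero (b + 1) b (by nlinarith [Nat.zero_le (k * (b : ℕ))])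
  refine ⟨fun l => if h : (k + 1) * l < N then p ⟨(k + 1) * l, h⟩ else 0, ?_, ?_⟩
  · refine antitone_nat_of_succ_le fun l => ?_
    by_cases h1 : (k + 1) * (l + 1) < N
    · have h0 : (k + 1) * l < N := lt_of_le_of_lt (Nat.mul_le_mul_left _ (Nat.le_succ l)) h1
      rw [dif_pos h1, dif_pos h0]
      have e1 : (k + 1) * (l + 1) = (k + 1) * l + k + 1 := by ring
      set j : Fin N := ⟨(k + 1) * (l + 1), h1⟩ with hj
      set i : Fin N := ⟨(k + 1) * l, h0⟩ with hi
      have hj'lt : (k + 1) * l + k < N := by omega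
      set j' : Fin N := ⟨(k + 1) * l + k, hj'lt⟩ with hj'
      have hjj : (j' : ℕ) + 1 = j := by simp [hj, hj', e1]
      have hnd' : ¬ (k + 1) ∣ (j' : ℕ) := by
        rintro ⟨y, hy⟩
        simp only [hj'] at hy
        have h3 : (k + 1) * l < (k + 1) * y := by omega
        have h4 : l < y := lt_of_mul_lt_mul_left h3 (Nat.zero_le _)
        have h5 : (k + 1) * (l + 1) ≤ (k + 1) * y := Nat.mul_le_mul_left _ h4
        rw [e1] at h5
        omega
      have h2 := hstar j j' hjj
      rw [hz j' hnd'] at h2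
      -- `net j = 0`
      have hnj : 0 ≤ net k p j := hnet j (Dvd.intro _ rfl)
      have hnj' : net k p j' ≤ (p i : ℤ) - (p j : ℤ) := by
        rw [net_eq]
        have h3 : ∑ b ∈ univ.filter (fun b : Fin N => (b : ℕ) < j' ∧ (j' : ℕ) ≤ b + k), p b ≤
            p i := by
          rw [Finset.sum_eq_single_of_mem i]
          · refine Finset.mem_filter.2 ⟨mem_univ _, ?_, ?_⟩ <;> simp [hi, hj'] <;> omega
          · intro b hb hbi
            obtain ⟨-, hb1, hb2⟩ := Finset.mem_filter.1 hb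
            apply hz
            rintro ⟨y, hy⟩
            simp only [hj'] at hb1 hb2
            rw [hy] at hb1 hb2
            have h4 : (k + 1) * y < (k + 1) * (l + 1) := by rw [e1]; omega
            have h5 : y < l + 1 := lt_of_mul_lt_mul_left h4 (Nat.zero_le _)
            have h6 : y ≠ l := by
              rintro rfl
              apply hbi
              ext
              rw [hy]
            have h7 : (k + 1) * (y + 1) ≤ (k + 1) * l := Nat.mul_le_mul_left _ (by omega)
            rw [Nat.mul_succ] at h7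
            omega
        have h4 : p j ≤ ∑ b ∈ univ.filter (fun b : Fin N => (j' : ℕ) < b ∧ (b : ℕ) ≤ j' + k),
            p b := by
          refine Finset.single_le_sum (f := fun b => p b) (fun _ _ => Nat.zero_le _) ?_
          refine Finset.mem_filter.2 ⟨mem_univ _, ?_, ?_⟩ <;> simp only [hj, hj', e1] <;> omega
        have h3' : ((∑ b ∈ univ.filter (fun b : Fin N => (b : ℕ) < j' ∧ (j' : ℕ) ≤ b + k), p b : ℕ)
            : ℤ) ≤ p i := by exact_mod_cast h3
        have h4' : (p j : ℤ) ≤ ((∑ b ∈ univ.filter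
            (fun b : Fin N => (j' : ℕ) < b ∧ (b : ℕ) ≤ j' + k), p b : ℕ) : ℤ) := by
          exact_mod_cast h4
        linarith
      have h5 : (p j : ℤ) ≤ p i := by
        push_cast at h2
        linarith
      exact_mod_cast h5
    · rw [dif_neg h1]
      exact Nat.zero_le _
  · funext b
    unfold pExp
    by_cases hb : (k + 1) ∣ (b : ℕ)
    · rw [if_pos hb]
      have e : (k + 1) * ((b : ℕ) / (k + 1)) = b := Nat.mul_div_cancel' hb
      have hlt : (k + 1) * ((b : ℕ) / (k + 1)) < N := by rw [e]; exact b.2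
      change p b = dite ((k + 1) * ((b : ℕ) / (k + 1)) < N) (fun h => p ⟨_, h⟩) (fun _ => 0)
      rw [dif_pos hlt]
      congr 1
      ext
      exact e.symm
    · rw [if_neg hb, hz b hb]

/-! ### the class -/

variable {T : ThetaData N k}

theorem cls_H (T : ThetaData N k) : Cls T (Eser N k (-1)) := by
  refine ⟨T.H_pos, fun η hη => ?_⟩
  obtain ⟨I, -, rfl⟩ := H177.exists_of_Eser_ne_zero hη
  exact ⟨_, rfl⟩

/-- The indicator of the first `m` greedy vertices. -/
def ind (N k m : ℕ) : Fin N → ℕ := fun a => if a ∈ H177.greedy N k m then 1 else 0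

theorem ind_succ {m : ℕ} {i : Fin N} (hi : (i : ℕ) = (k + 1) * m) :
    ind N k (m + 1) = ind N k m + Pi.single i 1 := by
  classical
  funext a
  unfold ind
  simp only [Pi.add_apply, H177.mem_greedy]
  by_cases ha : a = i
  · subst ha
    rw [Pi.single_eq_same, if_pos, if_neg]
    · rintro ⟨-, h⟩
      rw [hi, Nat.mul_div_cancel_left _ (Nat.succ_pos k)] at h
      omega
    · refine ⟨hi ▸ Dvd.intro m rfl, ?_⟩
      rw [hi, Nat.mul_div_cancel_left _ (Nat.succ_pos k)]
      omega
  · rw [Pi.single_eq_of_ne ha, add_zero]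
    congr 1
    rw [eq_iff_iff]
    constructor
    · rintro ⟨⟨y, hy⟩, h2⟩
      refine ⟨⟨y, hy⟩, ?_⟩
      rw [hy, Nat.mul_div_cancel_left _ (Nat.succ_pos k)] at h2 ⊢
      have : y ≠ m := by
        rintro rfl
        apply ha
        ext
        rw [hy, hi]
      omega
    · rintro ⟨h1, h2⟩
      exact ⟨h1, by omega⟩

theorem net_ind {m : ℕ} {i : Fin N} (hi : (i : ℕ) = (k + 1) * m) (a : Fin N) (ha : i ≤ a) :
    net k (ind N k m) a = 0 := by
  classical
  unfold net
  refine Finset.sum_eq_zero fun b _ => ?_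
  unfold ind
  by_cases hb : b ∈ H177.greedy N k m
  · obtain ⟨⟨y, hy⟩, h2⟩ := H177.mem_greedy.1 hb
    rw [hy, Nat.mul_div_cancel_left _ (Nat.succ_pos k)] at h2
    have h3 : (k + 1) * (y + 1) ≤ (k + 1) * m := Nat.mul_le_mul_left _ h2
    rw [Nat.mul_succ, ← hy, ← hi] at h3
    have h4 : (i : ℕ) ≤ a := ha
    have h5 : ¬ ((b : ℕ) < a ∧ (a : ℕ) ≤ b + k) := by omega
    have h6 : ¬ ((a : ℕ) < b ∧ (b : ℕ) ≤ a + k) := by omega
    rw [wE_eq, if_neg h5, if_neg h6]
    simp
  · rw [if_neg hb]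
    simp

theorem Cls.isC0 (hk : 1 ≤ k) {h : QSeries (extB N k)} (hc : Cls T h) {γ : Fin N →₀ ℕ}
    (h0 : T.al γ h ≠ 0) : IsC0 N k γ := by
  classical
  have hg := hc.good h0
  obtain ⟨p, rfl⟩ : Eff γ := hg γ (by rw [T.th_self]; exact one_ne_zero)
  have hnet : ∀ i : Fin N, (k + 1) ∣ (i : ℕ) → 0 ≤ net k p i := by
    rintro i ⟨m, hm⟩
    refine net_nonneg_of_good (T := T) hk (w1 := ind N k m) (net_ind hm) fun L => ?_
    have hal : T.al (epsExp (ind N k m + Pi.single i 1)) (Eser N k (-1)) ≠ 0 := by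
      rw [← ind_succ hm]
      have h1 := H177.al_greedy T (d := m + 1) (Or.inr (by
        rw [Nat.add_sub_cancel, mul_comm, ← hm]; exact i.2))
      have h2 : epsSet (H177.greedy N k (m + 1)) = epsExp (ind N k (m + 1)) := rfl
      rw [← h2, h1]
      exact zpow_ne_zero _ v_ne_zero
    obtain ⟨h', hc', h1⟩ := hc.pow h0 (cls_H T) hal L
    exact hc'.good h1
  have hstar : ∀ j j' : Fin N, (j' : ℕ) + 1 = j → net k p j - net k p j' ≤ (p j' : ℤ) := by
    intro j j' hj
    rcases le_or_gt (net k p j - net k p j') 0 with h1 | h1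
    · exact h1.trans (by positivity)
    · obtain ⟨p', -, -, h2⟩ := string_step hg (p := p) (by rw [T.th_self]; exact one_ne_zero) hj
        rfl (c := (net k p j - net k p j').toNat) (by omega) (by
          rw [Int.toNat_of_nonneg h1.le])
      have h3 := congrFun h2 j'
      have hne : j' ≠ j := by
        rintro rfl
        omega
      simp only [Pi.add_apply, Pi.single_eq_same, Pi.single_eq_of_ne hne] at h3
      omega
  obtain ⟨lam, hlam, hp⟩ := lemma0 hk p hnet hstar
  exact ⟨lam, hlam, by rw [hp]⟩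

/-- `ω(ε_a, p_λ) ≥ 0`. -/
theorem net_pExp_nonneg (lam : ℕ → ℕ) (hl : Antitone lam) (a : Fin N) :
    0 ≤ net k (pExp (N := N) k lam) a := by
  classical
  rw [net_eq, sub_nonneg]
  have key : ∑ b ∈ univ.filter (fun b : Fin N => (a : ℕ) < b ∧ (b : ℕ) ≤ a + k),
      pExp (N := N) k lam b ≤
      ∑ b ∈ univ.filter (fun b : Fin N => (b : ℕ) < a ∧ (a : ℕ) ≤ b + k),
      pExp (N := N) k lam b := by
    -- restrict to the greedy vertices
    have e1 : ∑ b ∈ univ.filter (fun b : Fin N => (a : ℕ) < b ∧ (b : ℕ) ≤ a + k),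
        pExp (N := N) k lam b =
        ∑ b ∈ univ.filter (fun b : Fin N => ((a : ℕ) < b ∧ (b : ℕ) ≤ a + k) ∧
          (k + 1) ∣ (b : ℕ)), lam ((b : ℕ) / (k + 1)) := by
      rw [Finset.sum_filter, Finset.sum_filter]
      refine Finset.sum_congr rfl fun b _ => ?_
      unfold pExp
      by_cases h1 : (a : ℕ) < b ∧ (b : ℕ) ≤ a + k <;> by_cases h2 : (k + 1) ∣ (b : ℕ) <;>
        simp [h1, h2]
    rw [e1]
    let φ : Fin N → Fin N := fun b => ⟨(b : ℕ) - (k + 1), by omega⟩
    have hφ : ∀ b ∈ univ.filter (fun b : Fin N => ((a : ℕ) < b ∧ (b : ℕ) ≤ a + k) ∧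
          (k + 1) ∣ (b : ℕ)), ∃ y, (b : ℕ) = (k + 1) * y + (k + 1) ∧ (φ b : ℕ) = (k + 1) * y := by
      intro b hb
      obtain ⟨-, ⟨h1, h2⟩, y, hy⟩ := Finset.mem_filter.1 hb
      have hy0 : y ≠ 0 := by
        rintro rfl
        omega
      obtain ⟨y', rfl⟩ := Nat.exists_eq_succ_of_ne_zero hy0
      refine ⟨y', by rw [hy, Nat.mul_succ], ?_⟩
      simp only [φ]
      rw [hy, Nat.mul_succ]
      omega
    calc ∑ b ∈ univ.filter (fun b : Fin N => ((a : ℕ) < b ∧ (b : ℕ) ≤ a + k) ∧
          (k + 1) ∣ (b : ℕ)), lam ((b : ℕ) / (k + 1))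
        ≤ ∑ b ∈ univ.filter (fun b : Fin N => ((a : ℕ) < b ∧ (b : ℕ) ≤ a + k) ∧
          (k + 1) ∣ (b : ℕ)), pExp (N := N) k lam (φ b) := by
          refine Finset.sum_le_sum fun b hb => ?_
          obtain ⟨y, h1, h2⟩ := hφ b hb
          unfold pExp
          rw [h2, if_pos (Dvd.intro y rfl), Nat.mul_div_cancel_left _ (Nat.succ_pos k), h1]
          apply hl
          rw [← Nat.mul_succ, Nat.mul_div_cancel_left _ (Nat.succ_pos k)]
          omega
      _ = ∑ b ∈ (univ.filter (fun b : Fin N => ((a : ℕ) < b ∧ (b : ℕ) ≤ a + k) ∧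
          (k + 1) ∣ (b : ℕ))).image φ, pExp (N := N) k lam b := by
          rw [Finset.sum_image]
          intro b hb b' hb' h
          obtain ⟨y, h1, h2⟩ := hφ b hb
          obtain ⟨y', h1', h2'⟩ := hφ b' hb'
          have h3 : (φ b : ℕ) = φ b' := congrArg Fin.val h
          ext
          omega
      _ ≤ _ := by
          refine Finset.sum_le_sum_of_subset ?_
          intro c hc
          obtain ⟨b, hb, rfl⟩ := Finset.mem_image.1 hc
          obtain ⟨y, h1, h2⟩ := hφ b hb
          obtain ⟨-, ⟨h3, h4⟩, -⟩ := Finset.mem_filter.1 hb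
          refine Finset.mem_filter.2 ⟨mem_univ _, ?_, ?_⟩ <;> omega
  exact_mod_cast key

theorem omega_C0_nonneg (m : Fin N → ℕ) (lam : ℕ → ℕ) (hl : Antitone lam) :
    0 ≤ omega (extB N k) (toZ (epsExp m)) (toZ (epsExp (pExp (N := N) k lam))) := by
  rw [omega_epsExp]
  refine Finset.sum_nonneg fun a _ => ?_
  have h1 := net_pExp_nonneg (k := k) lam hl a
  have h2 : ∑ b, (m a : ℤ) * (pExp (N := N) k lam b : ℤ) * wE k ((a : ℕ) + 1) ((b : ℕ) + 1) =
      (m a : ℤ) * net k (pExp (N := N) k lam) a := by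
    unfold net
    rw [Finset.mul_sum]
    exact Finset.sum_congr rfl fun b _ => by ring
  rw [h2]
  exact mul_nonneg (by positivity) h1

theorem Cls.al_eq {h : QSeries (extB N k)} (hc : Cls T h) {γ : Fin N →₀ ℕ}
    (hγ : IsC0 N k γ) : T.al γ h = h γ := by
  obtain ⟨lam, hl, rfl⟩ := hγ
  refine T.trace _ h fun η hη => ?_
  obtain ⟨m, rfl⟩ := hc.eff η hη
  exact omega_C0_nonneg m lam hl

/-- The trace formula for the class. -/
theorem Cls.al_formula (hk : 1 ≤ k) {h : QSeries (extB N k)} (hc : Cls T h)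
    (γ : Fin N →₀ ℕ) [Decidable (IsC0 N k γ)] :
    T.al γ h = if IsC0 N k γ then h γ else 0 := by
  split_ifs with h1
  · exact hc.al_eq h1
  · by_contra h0
    exact h1 (hc.isC0 hk h0)

theorem cls_Ek (hk : 1 ≤ k) (d : ℕ) : Cls T (Ek N k d) := by
  classical
  by_cases hd : d = 0 ∨ (d - 1) * (k + 1) < N
  · rw [H177.Ek_eq_th T hk d hd]
    refine ⟨fun γ => ?_, ?_⟩
    · rw [T.al_th]
      split_ifs
      · exact Pos.one
      · exact Pos.zero
    · have h1 := H177.al_greedy T hd
      rw [H177.epsSet_greedy] at h1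
      exact (cls_H T).good (by rw [h1]; exact zpow_ne_zero _ v_ne_zero)
  · rw [H177.Ek_eq_zero hd]
    refine ⟨fun γ => ?_, fun η hη => absurd rfl hη⟩
    rw [map_zero]
    exact Pos.zero

theorem one_eq_Ek : (1 : QSeries (extB N k)) = Ek N k 0 := by
  classical
  ext η
  rw [one_apply]
  unfold Ek
  congr 1
  rw [eq_iff_iff]
  constructor
  · rintro rfl
    refine ⟨∅, fun a ha => absurd ha (by simp), by simp, ?_⟩
    unfold epsSet
    have : (fun a : Fin N => if a ∈ (∅ : Finset (Fin N)) then 1 else 0) = (0 : Fin N → ℕ) := by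
      funext a; simp
    rw [this, epsExp_zero]
  · rintro ⟨I, -, h1, rfl⟩
    rw [Finset.card_eq_zero.1 h1]
    unfold epsSet
    have : (fun a : Fin N => if a ∈ (∅ : Finset (Fin N)) then 1 else 0) = (0 : Fin N → ℕ) := by
      funext a; simp
    rw [this, epsExp_zero]

theorem cls_prod (hk : 1 ≤ k) (l : List ℕ) : Cls T ((l.map (Ek N k)).prod) := by
  induction l with
  | nil =>
    rw [List.map_nil, List.prod_nil, one_eq_Ek]
    exact cls_Ek hk 0
  | cons d l ih =>
    rw [List.map_cons, List.prod_cons]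
    exact (cls_Ek hk d).mul ih

open Classical in
/-- **S6b**: the trace formula for the products of the `E_d`. -/
theorem al_prod_Ek (T : ThetaData N k) (hk : 1 ≤ k) {M : ℕ} (μ : Fin M → ℕ) (γ : Fin N →₀ ℕ) :
    T.al γ ((List.ofFn fun i => Ek N k (μ i)).prod) =
      if IsC0 N k γ then ((List.ofFn fun i => Ek N k (μ i)).prod) γ else 0 := by
  have h1 : (List.ofFn fun i => Ek N k (μ i)) = (List.ofFn μ).map (Ek N k) := by
    rw [List.map_ofFn]; rfl
  rw [h1]
  exact (cls_prod hk _).al_formula hk γ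

end

end Vale.Agent.P066.Theta.S6b
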