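import Vale.Agent.P066.Theta.H615.Ring

/-!
# Elementary properties of `Pos` (Laurent polynomials in `v` with coefficients in `ℕ`)
-/

set_option autoImplicit false

open Finset

namespace Vale.Agent.P066.Theta

noncomputable section

/-- The Laurent polynomial with coefficients `c`. -/
def lval (c : ℤ →₀ ℕ) : K := c.sum fun i m => (m : K) * v ^ i

theorem pos_iff {a : K} : Pos a ↔ ∃ c, a = lval c := Iff.rfl

theorem lval_zero : lval 0 = 0 := by simp [lval]

theorem lval_add (c d : ℤ →₀ ℕ) : lval (c + d) = lval c + lval d := by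
  unfold lval
  rw [Finsupp.sum_add_index']
  · intro i; simp
  · intro i m n; push_cast; ring

theorem lval_single (i : ℤ) (m : ℕ) : lval (Finsupp.single i m) = (m : K) * v ^ i := by
  unfold lval
  rw [Finsupp.sum_single_index]
  simp

/-- `lval` is injective. -/
theorem lval_injective : Function.Injective lval := by
  intro c d h
  classical
  obtain ⟨n, hn⟩ : ∃ n : ℕ, ∀ i ∈ c.support ∪ d.support, 0 ≤ i + (n : ℤ) := by
    refine ⟨∑ i ∈ c.support ∪ d.support, i.natAbs, fun i hi => ?_⟩
    have h1 : i.natAbs ≤ ∑ i ∈ c.support ∪ d.support, i.natAbs :=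
      Finset.single_le_sum (f := fun i : ℤ => i.natAbs) (fun _ _ => Nat.zero_le _) hi
    omega
  let S := c.support ∪ d.support
  let P : (ℤ →₀ ℕ) → Polynomial ℚ := fun c =>
    ∑ i ∈ S, Polynomial.monomial (i + (n : ℤ)).toNat ((c i : ℕ) : ℚ)
  have hP : ∀ c : ℤ →₀ ℕ, c.support ⊆ S → algebraMap (Polynomial ℚ) K (P c) = v ^ n * lval c := by
    intro c hcS
    have e1 : lval c = ∑ i ∈ S, ((c i : ℕ) : K) * v ^ i := by
      unfold lval
      rw [Finsupp.sum_of_support_subset _ hcS]
      intro i _; simp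
    rw [e1]
    simp only [P, map_sum, Finset.mul_sum]
    refine Finset.sum_congr rfl fun i hi => ?_
    have h2 := hn i hi
    rw [← Polynomial.C_mul_X_pow_eq_monomial, map_mul, map_pow]
    have h3 : (algebraMap (Polynomial ℚ) K) Polynomial.X = v := RatFunc.algebraMap_X
    rw [h3]
    have h4 : (v : K) ^ (i + (n : ℤ)).toNat = v ^ n * v ^ i := by
      rw [← zpow_natCast, Int.toNat_of_nonneg h2, zpow_add₀ v_ne_zero, zpow_natCast]
      ring
    rw [h4]
    have h5 : (algebraMap (Polynomial ℚ) K) (Polynomial.C ((c i : ℕ) : ℚ)) = ((c i : ℕ) : K) := by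
      simp
    rw [h5]; ring
  have hPP : P c = P d := by
    apply RatFunc.algebraMap_injective ℚ
    rw [hP c Finset.subset_union_left, hP d Finset.subset_union_right, h]
  ext i
  by_cases hi : i ∈ S
  · have hc : (P c).coeff (i + (n : ℤ)).toNat = (P d).coeff (i + (n : ℤ)).toNat := by rw [hPP]
    have key : ∀ c : ℤ →₀ ℕ, (P c).coeff (i + (n : ℤ)).toNat = ((c i : ℕ) : ℚ) := by
      intro c
      simp only [P, Polynomial.finsetSum_coeff, Polynomial.coeff_monomial]
      rw [Finset.sum_eq_single i]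
      · simp
      · intro j hj hji
        rw [if_neg]
        intro hh
        have h1 := hn i hi
        have h2 := hn j hj
        apply hji
        omega
      · intro h'; exact absurd hi h'
    rw [key, key] at hc
    exact_mod_cast hc
  · have h1 : i ∉ c.support := fun h' => hi (Finset.mem_union_left _ h')
    have h2 : i ∉ d.support := fun h' => hi (Finset.mem_union_right _ h')
    rw [Finsupp.notMem_support_iff.1 h1, Finsupp.notMem_support_iff.1 h2]

theorem lval_eq_zero {c : ℤ →₀ ℕ} (h : lval c = 0) : c = 0 :=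
  lval_injective (h.trans lval_zero.symm)

theorem Pos.zero : Pos (0 : K) := ⟨0, lval_zero.symm⟩

theorem Pos.zpow (n : ℤ) : Pos (v ^ n) := ⟨Finsupp.single n 1, by rw [← lval, lval_single]; simp⟩

theorem Pos.one : Pos (1 : K) := by simpa using Pos.zpow 0

theorem Pos.natCast (m : ℕ) : Pos (m : K) :=
  ⟨Finsupp.single 0 m, by rw [← lval, lval_single]; simp⟩

theorem Pos.add {a b : K} (ha : Pos a) (hb : Pos b) : Pos (a + b) := by
  obtain ⟨c, rfl⟩ := pos_iff.1 ha
  obtain ⟨d, rfl⟩ := pos_iff.1 hb
  exact ⟨c + d, (lval_add c d).symm⟩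

theorem Pos.sum {ι : Type*} {s : Finset ι} {f : ι → K} (h : ∀ i ∈ s, Pos (f i)) :
    Pos (∑ i ∈ s, f i) := by
  classical
  induction s using Finset.induction_on with
  | empty => simpa using Pos.zero
  | insert a s has ih =>
    rw [Finset.sum_insert has]
    exact (h a (Finset.mem_insert_self a s)).add
      (ih fun i hi => h i (Finset.mem_insert_of_mem hi))

theorem Pos.mul_mono {a : K} (ha : Pos a) (m : ℕ) (n : ℤ) : Pos ((m : K) * v ^ n * a) := by
  obtain ⟨c, rfl⟩ := pos_iff.1 ha
  unfold lval Finsupp.sum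
  rw [Finset.mul_sum]
  refine Pos.sum fun i _ => ?_
  refine ⟨Finsupp.single (n + i) (m * c i), ?_⟩
  rw [← lval, lval_single, zpow_add₀ v_ne_zero]
  push_cast; ring

theorem Pos.mul {a b : K} (ha : Pos a) (hb : Pos b) : Pos (a * b) := by
  obtain ⟨c, rfl⟩ := pos_iff.1 ha
  unfold lval Finsupp.sum
  rw [Finset.sum_mul]
  exact Pos.sum fun i _ => hb.mul_mono (c i) i

theorem Pos.pow {a : K} (ha : Pos a) (n : ℕ) : Pos (a ^ n) := by
  induction n with
  | zero => simpa using Pos.one
  | succ n ih => rw [pow_succ]; exact ih.mul ha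

/-- No cancellation. -/
theorem Pos.add_eq_zero {a b : K} (ha : Pos a) (hb : Pos b) (h : a + b = 0) : a = 0 ∧ b = 0 := by
  obtain ⟨c, rfl⟩ := pos_iff.1 ha
  obtain ⟨d, rfl⟩ := pos_iff.1 hb
  rw [← lval_add] at h
  have h0 := lval_eq_zero h
  have hc : c = 0 := by
    ext i
    have := DFunLike.congr_fun h0 i
    simp at this
    simpa using this.1
  have hd : d = 0 := by
    ext i
    have := DFunLike.congr_fun h0 i
    simp at this
    simpa using this.2
  rw [hc, hd]; exact ⟨lval_zero, lval_zero⟩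

theorem Pos.sum_eq_zero {ι : Type*} {s : Finset ι} {f : ι → K} (h : ∀ i ∈ s, Pos (f i))
    (h0 : ∑ i ∈ s, f i = 0) : ∀ i ∈ s, f i = 0 := by
  classical
  induction s using Finset.induction_on with
  | empty => simp
  | insert a s has ih =>
    rw [Finset.sum_insert has] at h0
    have h1 := (h a (Finset.mem_insert_self a s)).add_eq_zero
      (Pos.sum fun i hi => h i (Finset.mem_insert_of_mem hi)) h0
    intro i hi
    rcases Finset.mem_insert.1 hi with rfl | hi
    · exact h1.1
    · exact ih (fun i hi => h i (Finset.mem_insert_of_mem hi)) h1.2 i hi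

theorem Pos.sum_ne_zero {ι : Type*} {s : Finset ι} {f : ι → K} (h : ∀ i ∈ s, Pos (f i))
    {i : ι} (hi : i ∈ s) (hne : f i ≠ 0) : ∑ i ∈ s, f i ≠ 0 :=
  fun h0 => hne (Pos.sum_eq_zero h h0 i hi)

/-- A monomial is not a sum of two nonzero elements. -/
theorem Pos.add_eq_zpow {a b : K} {n : ℤ} (ha : Pos a) (hb : Pos b) (h : a + b = v ^ n)
    (ha0 : a ≠ 0) : a = v ^ n ∧ b = 0 := by
  obtain ⟨c, rfl⟩ := pos_iff.1 ha
  obtain ⟨d, rfl⟩ := pos_iff.1 hb
  have hv : (v : K) ^ n = lval (Finsupp.single n 1) := by rw [lval_single]; simp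
  rw [← lval_add, hv] at h
  have h0 := lval_injective h
  have hc0 : c ≠ 0 := fun hh => ha0 (by rw [hh, lval_zero])
  have hd : d = 0 := by
    by_contra hd
    obtain ⟨i, hi⟩ := Finsupp.ne_iff.1 hc0
    obtain ⟨j, hj⟩ := Finsupp.ne_iff.1 hd
    have h1 := DFunLike.congr_fun h0 i
    have h2 := DFunLike.congr_fun h0 j
    simp only [Finsupp.coe_add, Pi.add_apply, Finsupp.coe_zero, Pi.zero_apply] at h1 h2 hi hj
    have hin : i = n := by
      by_contra hin
      rw [Finsupp.single_eq_of_ne (by simpa using hin)] at h1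
      omega
    have hjn : j = n := by
      by_contra hjn
      rw [Finsupp.single_eq_of_ne (by simpa using hjn)] at h2
      omega
    subst hin; subst hjn
    simp at h1
    omega
  rw [hd, add_zero] at h0
  rw [hd, lval_zero, h0, hv]
  exact ⟨rfl, rfl⟩

end

end Vale.Agent.P066.Theta
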