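import Vale.Agent.P066.Theta.Comb.Cls
import Vale.Agent.P066.Theta.EkTheta

/-!
# String chains (block S6b)

If all `ϑ_{γ + L w}` have effective exponents, then `ω(ε_i, γ) ≥ 0`.
-/

set_option autoImplicit false

open Finset

namespace Vale.Agent.P066.Theta.S6b

noncomputable section

open QSeries

variable {N k : ℕ}

/-- `ω(ε_a, ∑ A_b ε_b)`. -/
def netZ (k : ℕ) (A : Fin N → ℤ) (a : Fin N) : ℤ :=
  ∑ b, A b * wE k ((a : ℕ) + 1) ((b : ℕ) + 1)

/-- `ω(ε_a, ∑ p_b ε_b)`. -/
def net (k : ℕ) (p : Fin N → ℕ) (a : Fin N) : ℤ :=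
  ∑ b, (p b : ℤ) * wE k ((a : ℕ) + 1) ((b : ℕ) + 1)

theorem net_eq_netZ (p : Fin N → ℕ) (a : Fin N) : net k p a = netZ k (fun b => (p b : ℤ)) a := rfl

theorem netZ_add (A A' : Fin N → ℤ) (a : Fin N) :
    netZ k (fun b => A b + A' b) a = netZ k A a + netZ k A' a := by
  simp [netZ, add_mul, Finset.sum_add_distrib]

theorem netZ_smul (c : ℤ) (A : Fin N → ℤ) (a : Fin N) :
    netZ k (fun b => c * A b) a = c * netZ k A a := by
  simp [netZ, mul_assoc, Finset.mul_sum]

theorem netZ_delta (c : Fin N) (a : Fin N) :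
    netZ k (fun b => if b = c then (1 : ℤ) else 0) a = wE k ((a : ℕ) + 1) ((c : ℕ) + 1) := by
  simp [netZ]

theorem wE_self (a : ℕ) : wE k a a = 0 := by
  unfold wE
  split_ifs <;> omega

theorem sAt_step (p : Fin N → ℕ) {j j' : Fin N} (hj : (j' : ℕ) + 1 = j) :
    sAt N k j (epsExp p) = net k p j - net k p j' := by
  rw [H177.sAt_epsExp]
  unfold net
  rw [← Finset.sum_sub_distrib]
  refine Finset.sum_congr rfl fun b _ => ?_
  rw [hj]
  ring

theorem epsExp_smul (L : ℕ) (m : Fin N → ℕ) : epsExp (L • m) = L • epsExp m := by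
  ext j
  simp [epsExp, Finset.mul_sum]

theorem epsExp_single_step (c : ℕ) {j j' : Fin N} (hj : (j' : ℕ) + 1 = j) :
    epsExp (Pi.single j c) = Finsupp.single j c + epsExp (Pi.single j' c) := by
  classical
  ext i
  rw [Finsupp.add_apply, epsExp_apply, epsExp_apply, Finset.sum_filter, Finset.sum_filter,
    Finset.sum_eq_single j, Finset.sum_eq_single j', Finsupp.single_apply]
  · simp only [Pi.single_eq_same]
    have e1 : (i ≤ j) ↔ (i : ℕ) ≤ j := Iff.rfl
    have e2 : (i ≤ j') ↔ (i : ℕ) ≤ j' := Iff.rfl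
    have e3 : (j = i) ↔ (j : ℕ) = i := Fin.ext_iff
    simp only [e1, e2, e3]
    split_ifs <;> omega
  · intro b _ hb
    simp [Pi.single_eq_of_ne hb]
  · intro h; exact absurd (Finset.mem_univ _) h
  · intro b _ hb
    simp [Pi.single_eq_of_ne hb]
  · intro h; exact absurd (Finset.mem_univ _) h

theorem step_split {p p' : Fin N → ℕ} {c : ℕ} {j j' : Fin N} (hj : (j' : ℕ) + 1 = j)
    (h : epsExp p + Finsupp.single j c = epsExp p') :
    p' + Pi.single j' c = p + Pi.single j c := by
  apply epsExp_injective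
  rw [epsExp_add, epsExp_add, epsExp_single_step c hj, ← h]
  abel

/-- Strings at the bottom exponents of a theta function with effective exponents. -/
theorem string_step {T : ThetaData N k} {γ : Fin N →₀ ℕ} (hg : Good T γ) {p : Fin N → ℕ}
    (hp : T.th γ (epsExp p) ≠ 0) {j j' : Fin N} (hj : (j' : ℕ) + 1 = j)
    (hbot : epsExp p j = γ j) {c : ℕ} (hc0 : 0 < c)
    (hc : net k p j - net k p j' = c) :
    ∃ p' : Fin N → ℕ, epsExp p + Finsupp.single j c = epsExp p' ∧ T.th γ (epsExp p') ≠ 0 ∧
      p' + Pi.single j' c = p + Pi.single j c := by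
  have h1 : T.th γ (epsExp p + Finsupp.single j c) ≠ 0 := by
    refine T.string γ (epsExp p) j (by omega) hp ?_ c hc0 ?_
    · intro η' hle hne hother
      by_contra h0
      apply hne
      ext i
      by_cases hi : i = j
      · subst hi
        refine le_antisymm (hle i) ?_
        rw [hbot]
        exact T.th_supp γ η' h0 i
      · exact hother i hi
    · rw [sAt_step p hj, hc]
  obtain ⟨p', hp'⟩ := hg _ h1
  exact ⟨p', hp', hp' ▸ h1, step_split hj hp'⟩

/-- The exponent `p + L w`. -/
def base (p w1 : Fin N → ℕ) (i : Fin N) (L : ℕ) : Fin N →₀ ℕ :=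
  epsExp p + L • epsExp (w1 + Pi.single i 1)

theorem base_eq (p w1 : Fin N → ℕ) (i : Fin N) (L : ℕ) :
    epsExp (p + L • (w1 + Pi.single i 1)) = base p w1 i L := by
  unfold base
  rw [epsExp_add, epsExp_smul]

theorem chain {T : ThetaData N k} (hk : 1 ≤ k) {p w1 : Fin N → ℕ} {i : Fin N}
    (hw1 : ∀ a : Fin N, i ≤ a → net k w1 a = 0)
    (hgood : ∀ L : ℕ, Good T (base p w1 i L)) (t : ℕ) :
    ∀ ht : (i : ℕ) + t < N, ∃ (A : Fin N → ℤ) (L0 : ℕ), ∀ L, L0 ≤ L → ∃ P : Fin N → ℕ,
      (∀ b, (P b : ℤ) = A b + L * (w1 b + if b = ⟨(i : ℕ) + t, ht⟩ then 1 else 0)) ∧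
      T.th (base p w1 i L) (epsExp P) ≠ 0 ∧
      (∀ j : Fin N, (i : ℕ) + t < j →
        epsExp P j = base p w1 i L j) ∧
      net k P ⟨(i : ℕ) + t, ht⟩ = net k p i := by
  induction t with
  | zero =>
    intro ht
    refine ⟨fun b => p b, 0, fun L _ => ⟨p + L • (w1 + Pi.single i 1), ?_, ?_, ?_, ?_⟩⟩
    · intro b
      simp only [Pi.add_apply, Pi.smul_apply, smul_eq_mul, add_zero, Nat.cast_add, Nat.cast_mul]
      congr 2
      congr 1
      by_cases hb : b = i
      · subst hb; simp
      · rw [Pi.single_eq_of_ne hb, if_neg]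
        · simp
        · intro h; exact hb (by rw [h])
    · rw [base_eq, T.th_self]
      exact one_ne_zero
    · intro j _
      rw [base_eq]
    · have e1 : ∀ b, (((p + L • (w1 + Pi.single i 1) : Fin N → ℕ) b : ℕ) : ℤ) =
          (p b : ℤ) + (L : ℤ) * ((w1 b : ℤ) + if b = i then 1 else 0) := by
        intro b
        simp only [Pi.add_apply, Pi.smul_apply, smul_eq_mul, Nat.cast_add, Nat.cast_mul]
        congr 2
        congr 1
        by_cases hb : b = i
        · subst hb; simp
        · rw [Pi.single_eq_of_ne hb, if_neg hb]; simp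
      have e2 : (⟨(i : ℕ) + 0, ht⟩ : Fin N) = i := by ext; simp
      rw [e2, net_eq_netZ]
      simp only [e1]
      rw [netZ_add (fun b => (p b : ℤ)) (fun b => (L : ℤ) * ((w1 b : ℤ) + if b = i then 1 else 0)),
        netZ_smul (L : ℤ) (fun b => (w1 b : ℤ) + if b = i then 1 else 0),
        netZ_add (fun b => (w1 b : ℤ)) (fun b => if b = i then (1 : ℤ) else 0), netZ_delta,
        ← net_eq_netZ, ← net_eq_netZ, hw1 i le_rfl, wE_self]
      ring
  | succ t ih =>
    intro ht
    have ht' : (i : ℕ) + t < N := by omega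
    obtain ⟨A, L0, hA⟩ := ih ht'
    set j : Fin N := ⟨(i : ℕ) + (t + 1), ht⟩ with hjdef
    set j' : Fin N := ⟨(i : ℕ) + t, ht'⟩ with hj'def
    have hj : (j' : ℕ) + 1 = j := by simp [hjdef, hj'def, add_assoc]
    set d : ℤ := netZ k A j - netZ k A j' with hd
    refine ⟨fun b => A b + d * ((if b = j then 1 else 0) - if b = j' then 1 else 0),
      max L0 (d.natAbs + 1), fun L hL => ?_⟩
    obtain ⟨P, h1, h2, h3, h4⟩ := hA L (le_trans (le_max_left _ _) hL)
    have hLd : d.natAbs + 1 ≤ L := le_trans (le_max_right _ _) hL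
    -- the net values of `P`
    have hnet : ∀ a : Fin N, i ≤ a → net k P a =
        netZ k A a + L * wE k ((a : ℕ) + 1) ((j' : ℕ) + 1) := by
      intro a ha
      rw [net_eq_netZ]
      simp only [h1]
      rw [netZ_add A (fun b => (L : ℤ) * ((w1 b : ℤ) + if b = j' then 1 else 0)),
        netZ_smul (L : ℤ) (fun b => (w1 b : ℤ) + if b = j' then 1 else 0),
        netZ_add (fun b => (w1 b : ℤ)) (fun b => if b = j' then (1 : ℤ) else 0), netZ_delta,
        ← net_eq_netZ, hw1 a ha]
      ring
    have hij : i ≤ j := by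
      rw [Fin.le_def, hjdef]; simp
    have hij' : i ≤ j' := by
      rw [Fin.le_def, hj'def]; simp
    have hw : wE k ((j : ℕ) + 1) ((j' : ℕ) + 1) = 1 := by
      unfold wE
      rw [if_neg (by omega), if_pos (by omega)]
    have hc : net k P j - net k P j' = ((d + L).toNat : ℤ) := by
      rw [hnet j hij, hnet j' hij', hw, wE_self, Int.toNat_of_nonneg (by omega), hd]
      ring
    have hc0 : 0 < (d + L).toNat := by omega
    obtain ⟨P', hP1, hP2, hP3⟩ := string_step (hgood L) h2 hj
      (h3 j (by rw [hjdef]; simp)) hc0 hc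
    refine ⟨P', ?_, hP2, ?_, ?_⟩
    · intro b
      have h5 := congrFun hP3 b
      simp only [Pi.add_apply] at h5
      have h6 : (P' b : ℤ) + (Pi.single j' (d + L).toNat : Fin N → ℕ) b =
          (P b : ℤ) + (Pi.single j (d + L).toNat : Fin N → ℕ) b := by exact_mod_cast h5
      have hjj : j ≠ j' := by
        intro h
        rw [h] at hj
        omega
      have e : ((d + (L : ℤ)).toNat : ℤ) = d + L := Int.toNat_of_nonneg (by omega)
      rw [h1 b] at h6
      by_cases hb : b = j
      · subst hb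
        rw [Pi.single_eq_same, Pi.single_eq_of_ne hjj, e] at h6
        simp only [hjj, if_true, if_false] at h6 ⊢
        push_cast at h6
        linarith
      · by_cases hb' : b = j'
        · subst hb'
          rw [Pi.single_eq_same, Pi.single_eq_of_ne hb, e] at h6
          simp only [hb, if_true, if_false] at h6 ⊢
          push_cast at h6
          linarith
        · rw [Pi.single_eq_of_ne hb, Pi.single_eq_of_ne hb'] at h6
          simp only [hb, hb', if_false] at h6 ⊢
          push_cast at h6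
          linarith
    · intro a ha
      rw [← h3 a (by omega), ← hP1, Finsupp.add_apply, Finsupp.single_apply, if_neg]
      · simp
      · intro h
        rw [← h, hjdef] at ha
        simp at ha
    · rw [← h4]
      have h5 : ∀ b, (P' b : ℤ) + (if b = j' then ((d + L).toNat : ℤ) else 0) =
          (P b : ℤ) + if b = j then ((d + L).toNat : ℤ) else 0 := by
        intro b
        have h5 := congrFun hP3 b
        simp only [Pi.add_apply, Pi.single_apply] at h5
        exact_mod_cast h5
      have h6 : net k P' j + ((d + L).toNat : ℤ) * wE k ((j : ℕ) + 1) ((j' : ℕ) + 1) =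
          net k P j + ((d + L).toNat : ℤ) * wE k ((j : ℕ) + 1) ((j : ℕ) + 1) := by
        have e1 : ∀ c : Fin N, ((d + L).toNat : ℤ) * wE k ((j : ℕ) + 1) ((c : ℕ) + 1) =
            netZ k (fun b => if b = c then ((d + L).toNat : ℤ) else 0) j := by
          intro c; simp [netZ]
        rw [e1 j', e1 j, net_eq_netZ, net_eq_netZ, ← netZ_add, ← netZ_add]
        congr 1
        funext b
        exact h5 b
      rw [hw, wE_self, ← hc] at h6
      linarith

theorem net_nonneg_of_good {T : ThetaData N k} (hk : 1 ≤ k) {p w1 : Fin N → ℕ} {i : Fin N}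
    (hw1 : ∀ a : Fin N, i ≤ a → net k w1 a = 0)
    (hgood : ∀ L : ℕ, Good T (base p w1 i L)) :
    0 ≤ net k p i := by
  have hi := i.2
  obtain ⟨A, L0, hA⟩ := chain hk hw1 hgood (N - 1 - i) (by omega)
  obtain ⟨P, _, _, _, h4⟩ := hA L0 le_rfl
  rw [← h4]
  unfold net
  refine Finset.sum_nonneg fun b _ => mul_nonneg (by positivity) ?_
  have hb := b.2
  unfold wE
  simp only
  split_ifs <;> omega

end

end Vale.Agent.P066.Theta.S6b
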