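import Vale.Agent.P066.Theta.Comb.Pos
import Vale.Agent.P066.Theta.H403.Omega
import Vale.Agent.P066.Theta.H615.Ring

/-!
# The class of positive combinations of theta functions with effective exponents (block S6b)
-/

set_option autoImplicit false

open Finset

namespace Vale.Agent.P066.Theta.S6b

noncomputable section

open QSeries

variable {N k : ℕ}

/-- Exponents `∑ p_a ε_a` with `p_a ≥ 0`. -/
def Eff (η : Fin N →₀ ℕ) : Prop := ∃ p : Fin N → ℕ, η = epsExp p

theorem Eff.zero : Eff (0 : Fin N →₀ ℕ) := ⟨0, epsExp_zero.symm⟩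

theorem Eff.add {η η' : Fin N →₀ ℕ} (h : Eff η) (h' : Eff η') : Eff (η + η') := by
  obtain ⟨p, rfl⟩ := h
  obtain ⟨p', rfl⟩ := h'
  exact ⟨p + p', (epsExp_add p p').symm⟩

/-- Positive combinations of theta functions with effective exponents. -/
structure Cls (T : ThetaData N k) (h : QSeries (extB N k)) : Prop where
  pos : ∀ γ, Pos (T.al γ h)
  eff : ∀ η, h η ≠ 0 → Eff η

/-- The theta function `ϑ_γ` has effective exponents. -/
def Good (T : ThetaData N k) (γ : Fin N →₀ ℕ) : Prop := ∀ η, T.th γ η ≠ 0 → Eff η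

variable (T : ThetaData N k)

theorem al_eq_sub (h : QSeries (extB N k)) (η : Fin N →₀ ℕ) :
    T.al η h = h η - ∑ γ ∈ Finset.Iio η, T.al γ h * T.th γ η := by
  classical
  have h1 := T.expand h η
  rw [← Finset.Iio_insert, Finset.sum_insert (by simp), T.th_self, mul_one] at h1
  rw [h1]
  ring

/-- `α_η` depends only on the coefficients below `η`. -/
theorem al_congr {h h' : QSeries (extB N k)} (η : Fin N →₀ ℕ) (hh : ∀ e, e ≤ η → h e = h' e) :
    T.al η h = T.al η h' := by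
  induction η using WellFoundedLT.induction with
  | _ η ih =>
    rw [al_eq_sub, al_eq_sub, hh η le_rfl]
    congr 1
    refine Finset.sum_congr rfl fun γ hγ => ?_
    have hlt := Finset.mem_Iio.1 hγ
    rw [ih γ hlt fun e he => hh e (he.trans hlt.le)]

/-- The part of `h` below `δ`. -/
def cut (δ : Fin N →₀ ℕ) (h : QSeries (extB N k)) : QSeries (extB N k) :=
  ∑ γ ∈ Finset.Iic δ, T.al γ h • T.th γ

theorem cut_apply {δ e : Fin N →₀ ℕ} (he : e ≤ δ) (h : QSeries (extB N k)) :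
    cut T δ h e = h e := by
  classical
  unfold cut
  rw [sum_apply, T.expand h e]
  symm
  refine Finset.sum_subset ?_ ?_
  · intro γ hγ
    exact Finset.mem_Iic.2 ((Finset.mem_Iic.1 hγ).trans he)
  · intro γ _ hγ
    have : T.th γ e = 0 := by
      by_contra h0
      exact hγ (Finset.mem_Iic.2 (T.th_supp γ e h0))
    rw [this, mul_zero]

theorem mul_congr {f f' g g' : QSeries (extB N k)} {e : Fin N →₀ ℕ}
    (hf : ∀ a, a ≤ e → f a = f' a) (hg : ∀ a, a ≤ e → g a = g' a) : (f * g) e = (f' * g') e := by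
  rw [mul_apply, mul_apply]
  refine Finset.sum_congr rfl fun p hp => ?_
  have h1 := Finset.HasAntidiagonal.mem_antidiagonal.1 hp
  rw [hf p.1 (h1 ▸ le_self_add), hg p.2 (h1 ▸ le_add_self)]

theorem al_mul (δ : Fin N →₀ ℕ) (h h' : QSeries (extB N k)) :
    T.al δ (h * h') = ∑ γ ∈ Finset.Iic δ, ∑ γ' ∈ Finset.Iic δ,
      T.al γ h * T.al γ' h' * T.al δ (T.th γ * T.th γ') := by
  have h1 : T.al δ (h * h') = T.al δ (cut T δ h * cut T δ h') := by
    refine al_congr T δ fun e he => ?_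
    exact mul_congr (fun a ha => (cut_apply T (ha.trans he) h).symm)
      fun a ha => (cut_apply T (ha.trans he) h').symm
  rw [h1]
  unfold cut
  rw [Finset.sum_mul_sum, map_sum]
  refine Finset.sum_congr rfl fun γ _ => ?_
  rw [map_sum]
  refine Finset.sum_congr rfl fun γ' _ => ?_
  rw [smul_mul_smul_comm, map_smul, smul_eq_mul]

variable {T}

theorem Cls.mul {h h' : QSeries (extB N k)} (hc : Cls T h) (hc' : Cls T h') :
    Cls T (h * h') := by
  constructor
  · intro δ
    rw [al_mul]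
    exact Pos.sum fun γ _ => Pos.sum fun γ' _ =>
      ((hc.pos γ).mul (hc'.pos γ')).mul (T.mul_pos γ γ' δ)
  · intro η hη
    by_contra hne
    apply hη
    refine mul_apply_eq_zero fun a b hab => ?_
    by_contra hcon
    push Not at hcon
    exact hne (hab ▸ (hc.eff a hcon.1).add (hc'.eff b hcon.2))

theorem Cls.al_mul_ne_zero {h h' : QSeries (extB N k)} (hc : Cls T h) (hc' : Cls T h')
    {γ γ' : Fin N →₀ ℕ} (h0 : T.al γ h ≠ 0) (h0' : T.al γ' h' ≠ 0) :
    T.al (γ + γ') (h * h') ≠ 0 := by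
  rw [al_mul]
  have hpos : ∀ δ ∈ Finset.Iic (γ + γ'), Pos (∑ δ' ∈ Finset.Iic (γ + γ'),
      T.al δ h * T.al δ' h' * T.al (γ + γ') (T.th δ * T.th δ')) := fun δ _ =>
    Pos.sum fun δ' _ => ((hc.pos δ).mul (hc'.pos δ')).mul (T.mul_pos δ δ' _)
  refine Pos.sum_ne_zero hpos (i := γ) (Finset.mem_Iic.2 le_self_add) ?_
  refine Pos.sum_ne_zero (fun δ' _ => ((hc.pos γ).mul (hc'.pos δ')).mul (T.mul_pos γ δ' _))
    (i := γ') (Finset.mem_Iic.2 le_add_self) ?_
  exact mul_ne_zero (mul_ne_zero h0 h0') (T.mul_lead γ γ')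

/-- No cancellation: constituents have effective exponents. -/
theorem Cls.good {h : QSeries (extB N k)} (hc : Cls T h) {γ : Fin N →₀ ℕ}
    (h0 : T.al γ h ≠ 0) : Good T γ := by
  intro η hη
  apply hc.eff
  rw [T.expand h η]
  exact Pos.sum_ne_zero (fun δ _ => (hc.pos δ).mul (T.th_pos δ η))
    (i := γ) (Finset.mem_Iic.2 (T.th_supp γ η hη)) (mul_ne_zero h0 hη)

theorem Cls.pow {h : QSeries (extB N k)} (hc : Cls T h) {γ : Fin N →₀ ℕ} (h0 : T.al γ h ≠ 0)
    {g : QSeries (extB N k)} (hg : Cls T g) {w : Fin N →₀ ℕ} (h1 : T.al w g ≠ 0) (L : ℕ) :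
    ∃ h', Cls T h' ∧ T.al (γ + L • w) h' ≠ 0 := by
  induction L with
  | zero => exact ⟨h, hc, by simpa using h0⟩
  | succ L ih =>
    obtain ⟨h', hc', h2⟩ := ih
    refine ⟨h' * g, hc'.mul hg, ?_⟩
    rw [succ_nsmul, ← add_assoc]
    exact hc'.al_mul_ne_zero hg h2 h1

end

end Vale.Agent.P066.Theta.S6b
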