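import Vale.Agent.P066.Theta.Comb.Pos
import Vale.Agent.P066.Theta.H403.GCount

/-!
# `E_d` is a theta function (block B6 (a))

From `T : ThetaData N k` with `1 ≤ k`: `E_d = ϑ_{w_d}`, `w_d` = the sum of the first `d` greedy
`ε`'s, as long as there are `d` greedy vertices; otherwise `E_d = 0`.
-/

set_option autoImplicit false

open Finset

namespace Vale.Agent.P066.Theta

namespace EkTh

/-- the first `d` greedy vertices -/
def greedy (N k d : ℕ) : Finset (Fin N) :=
  univ.filter fun a => (k + 1) ∣ (a : ℕ) ∧ (a : ℕ) / (k + 1) < d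

theorem mem_greedy {N k d : ℕ} {a : Fin N} :
    a ∈ greedy N k d ↔ (k + 1) ∣ (a : ℕ) ∧ (a : ℕ) / (k + 1) < d := by
  simp [greedy]

theorem epsExp_pExp_eq (N k d : ℕ) :
    epsExp (pExp (N := N) k fun l => if l < d then 1 else 0) = epsSet (greedy N k d) := by
  unfold epsSet
  congr 1
  funext a
  change (if (k + 1) ∣ (a : ℕ) then (if (a : ℕ) / (k + 1) < d then 1 else 0) else 0) = _
  by_cases h : (k + 1) ∣ (a : ℕ)
  · by_cases h' : (a : ℕ) / (k + 1) < d
    · rw [if_pos h, if_pos h', if_pos (mem_greedy.2 ⟨h, h'⟩)]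
    · rw [if_pos h, if_neg h', if_neg (fun h0 => h' (mem_greedy.1 h0).2)]
  · rw [if_neg h, if_neg (fun h0 => h (mem_greedy.1 h0).1)]

theorem stable_greedySet (N k d : ℕ) : Stable k (greedy N k d) :=
  stable_greedy _ fun _ ha => (mem_greedy.1 ha).1

theorem card_greedy {N k d : ℕ} (hd : ∀ l < d, (k + 1) * l < N) : (greedy N k d).card = d := by
  have h1 : (greedy N k d).image (fun a : Fin N => (a : ℕ) / (k + 1)) = range d := by
    ext l
    simp only [mem_image, mem_range]
    constructor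
    · rintro ⟨a, ha, rfl⟩
      exact (mem_greedy.1 ha).2
    · intro hl
      refine ⟨⟨(k + 1) * l, hd l hl⟩, mem_greedy.2 ⟨Dvd.intro l rfl, ?_⟩, ?_⟩
      · simpa using hl
      · simp
  have h2 : Set.InjOn (fun a : Fin N => (a : ℕ) / (k + 1)) (greedy N k d) := by
    intro a ha b hb hab
    have ha' := (mem_greedy.1 ha).1
    have hb' := (mem_greedy.1 hb).1
    simp only at hab
    apply Fin.ext
    rw [← Nat.div_mul_cancel ha', ← Nat.div_mul_cancel hb', hab]
  rw [← Finset.card_image_of_injOn h2, h1, card_range]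

theorem stable_injOn {N k : ℕ} {I : Finset (Fin N)} (h : Stable k I) :
    Set.InjOn (fun a : Fin N => (a : ℕ) / (k + 1)) I := by
  have key : ∀ a ∈ I, ∀ b ∈ I, a < b → (a : ℕ) / (k + 1) < (b : ℕ) / (k + 1) := by
    intro a ha b hb hab
    have h1 := h a ha b hb hab
    have h2 : ((a : ℕ) + (k + 1)) / (k + 1) ≤ (b : ℕ) / (k + 1) := Nat.div_le_div_right (by omega)
    rw [Nat.add_div_right _ (by omega)] at h2
    omega
  intro a ha b hb hab
  simp only at hab
  rcases lt_trichotomy a b with h1 | h1 | h1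
  · have := key a ha b hb h1
    omega
  · exact h1
  · have := key b hb a ha h1
    omega

theorem stable_valid {N k : ℕ} {I : Finset (Fin N)} (h : Stable k I) {l : ℕ} (hl : l < I.card) :
    (k + 1) * l < N := by
  have h1 : I.card ≤ (N - 1) / (k + 1) + 1 := by
    rw [← Finset.card_image_of_injOn (stable_injOn h)]
    refine (Finset.card_le_card (t := range ((N - 1) / (k + 1) + 1)) ?_).trans (by simp)
    intro x hx
    obtain ⟨a, -, rfl⟩ := mem_image.1 hx
    rw [mem_range]
    have : (a : ℕ) / (k + 1) ≤ (N - 1) / (k + 1) := Nat.div_le_div_right (by omega)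
    omega
  have hN : 0 < N := by
    obtain ⟨a, -⟩ : I.Nonempty := Finset.card_pos.1 (by omega)
    exact a.pos
  have h2 : l ≤ (N - 1) / (k + 1) := by omega
  have h3 := Nat.mul_le_mul_left (k + 1) h2
  have h4 := Nat.mul_div_le (N - 1) (k + 1)
  omega

theorem eq_range_of_pred {S : Finset ℕ} (h : ∀ l ∈ S, l ≠ 0 → l - 1 ∈ S) : S = range S.card := by
  have hdown : ∀ l, l ∈ S → ∀ m ≤ l, m ∈ S := by
    intro l
    induction l with
    | zero =>
      intro h0 m hm
      obtain rfl : m = 0 := by omega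
      exact h0
    | succ n ih =>
      intro hn m hm
      rcases Nat.lt_or_ge n m with h1 | h1
      · obtain rfl : m = n + 1 := by omega
        exact hn
      · exact ih (by simpa using h (n + 1) hn (by omega)) m h1
  have hsub : S ⊆ range S.card := by
    intro l hl
    have h1 : range (l + 1) ⊆ S := fun m hm => hdown l hl m (by have := mem_range.1 hm; omega)
    have h2 := card_le_card h1
    rw [card_range] at h2
    rw [mem_range]
    omega
  exact Finset.eq_of_subset_of_card_le hsub (by simp)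

theorem eq_greedy_of_stuck {N k : ℕ} {I : Finset (Fin N)} (hst : Stable k I)
    (hstuck : ∀ b ∈ I, (b : ℕ) ≠ 0 → ∃ a ∈ I, (a : ℕ) + (k + 1) = b) :
    I = greedy N k I.card := by
  have hdvd : ∀ n : ℕ, ∀ b ∈ I, (b : ℕ) = n → (k + 1) ∣ (b : ℕ) := by
    intro n
    induction n using Nat.strong_induction_on with
    | _ n ih =>
      intro b hb hbn
      by_cases h0 : (b : ℕ) = 0
      · rw [h0]
        exact dvd_zero _
      · obtain ⟨a, ha, hab⟩ := hstuck b hb h0
        rw [← hab]
        exact Dvd.dvd.add (ih a (by omega) a ha rfl) (dvd_refl _)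
  have hS := eq_range_of_pred (S := I.image (fun a : Fin N => (a : ℕ) / (k + 1))) (by
    intro l hl hl0
    obtain ⟨b, hb, rfl⟩ := mem_image.1 hl
    have hb0 : (b : ℕ) ≠ 0 := by
      intro h0
      rw [h0] at hl0
      simp at hl0
    obtain ⟨a, ha, hab⟩ := hstuck b hb hb0
    refine mem_image.2 ⟨a, ha, ?_⟩
    rw [← hab, Nat.add_div_right _ (by omega)]
    simp)
  rw [Finset.card_image_of_injOn (stable_injOn hst)] at hS
  ext b
  rw [mem_greedy]
  constructor
  · intro hb
    refine ⟨hdvd b b hb rfl, ?_⟩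
    have : (b : ℕ) / (k + 1) ∈ I.image (fun a : Fin N => (a : ℕ) / (k + 1)) :=
      mem_image_of_mem _ hb
    rw [hS] at this
    exact mem_range.1 this
  · rintro ⟨h1, h2⟩
    have : (b : ℕ) / (k + 1) ∈ I.image (fun a : Fin N => (a : ℕ) / (k + 1)) := by
      rw [hS]
      exact mem_range.2 h2
    obtain ⟨a, ha, hab⟩ := mem_image.1 this
    have : a = b := by
      apply Fin.ext
      rw [← Nat.div_mul_cancel (hdvd a a ha rfl), ← Nat.div_mul_cancel h1, hab]
    rw [← this]
    exact ha

/-! ### the exponents -/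

theorem epsSet_injective {N : ℕ} : Function.Injective (epsSet (N := N)) := by
  intro I J h
  have h1 := epsExp_injective h
  ext a
  have h2 := congrFun h1 a
  by_cases ha : a ∈ I <;> by_cases hb : a ∈ J <;> simp_all

theorem epsSet_insert {N : ℕ} {I : Finset (Fin N)} {a : Fin N} (h : a ∉ I) :
    epsSet (insert a I) = epsSet {a} + epsSet I := by
  unfold epsSet
  rw [← epsExp_add]
  congr 1
  funext x
  by_cases hx : x = a
  · subst hx
    simp [h]
  · simp [hx]

theorem epsSet_singleton_apply {N : ℕ} (a i : Fin N) :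
    epsSet {a} i = if i ≤ a then 1 else 0 := by
  unfold epsSet
  rw [epsExp_apply]
  rw [Finset.sum_filter]
  rw [Finset.sum_eq_single a]
  · simp
  · intro b _ hb
    simp [hb]
  · simp

theorem epsSet_move {N : ℕ} {I : Finset (Fin N)} {b b' : Fin N} (hb : b ∈ I)
    (hbb : (b' : ℕ) + 1 = b) (hb' : b' ∉ I) :
    epsSet (insert b' (I.erase b)) + Finsupp.single b 1 = epsSet I := by
  have h1 : I = insert b (I.erase b) := (Finset.insert_erase hb).symm
  have h2 : epsSet I = epsSet {b} + epsSet (I.erase b) := by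
    rw [← epsSet_insert (Finset.notMem_erase b I), Finset.insert_erase hb]
  rw [h2, epsSet_insert (fun h => hb' (Finset.mem_of_mem_erase h))]
  have h3 : epsSet {b} = epsSet {b'} + Finsupp.single b 1 := by
    ext i
    rw [Finsupp.add_apply, epsSet_singleton_apply, epsSet_singleton_apply, Finsupp.single_apply]
    have e1 : (i ≤ b) ↔ (i : ℕ) ≤ b := Iff.rfl
    have e2 : (i ≤ b') ↔ (i : ℕ) ≤ b' := Iff.rfl
    have e3 : (b = i) ↔ (b : ℕ) = i := Fin.ext_iff
    simp only [e1, e2, e3]
    split_ifs <;> omega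
  rw [h3]
  abel

/-- `ε_I` at two consecutive places -/
theorem epsSet_step {N : ℕ} (I : Finset (Fin N)) {b b' : Fin N} (hbb : (b' : ℕ) + 1 = b) :
    epsSet I b' = (if b' ∈ I then 1 else 0) + epsSet I b := by
  unfold epsSet
  rw [epsExp_apply, epsExp_apply]
  have h2 : univ.filter (fun a => b' ≤ a) = insert b' (univ.filter (fun a => b ≤ a)) := by
    ext a
    simp only [mem_filter, mem_univ, true_and, mem_insert]
    have e1 : (b' ≤ a) ↔ (b' : ℕ) ≤ a := Iff.rfl
    have e2 : (b ≤ a) ↔ (b : ℕ) ≤ a := Iff.rfl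
    have e3 : (a = b') ↔ (a : ℕ) = b' := Fin.ext_iff
    rw [e1, e2, e3]
    omega
  have h3 : b' ∉ univ.filter (fun a => b ≤ a) := by
    simp only [mem_filter, mem_univ, true_and]
    intro h
    have : (b : ℕ) ≤ b' := h
    omega
  rw [h2, Finset.sum_insert h3]

theorem sum_extB_right {N : ℕ} (k : ℕ) (j b : Fin N) :
    ∑ i ∈ univ.filter (fun i : Fin N => i ≤ b), extB N k j i =
      wE k ((j : ℕ) + 1) ((b : ℕ) + 1) - wE k (j : ℕ) ((b : ℕ) + 1) := by
  have h2 := sum_filter_le_fin b (fun i => (wE k ((j : ℕ) + 1) (i + 1) - wE k (j : ℕ) (i + 1)) -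
    (wE k ((j : ℕ) + 1) i - wE k (j : ℕ) i))
  have h3 := Finset.sum_range_sub (fun i => wE k ((j : ℕ) + 1) i - wE k (j : ℕ) i) ((b : ℕ) + 1)
  rw [← h2] at h3
  simp only [wE_zero_right, sub_zero] at h3
  rw [← h3]
  refine Finset.sum_congr rfl fun i _ => ?_
  simp only [extB]
  ring

theorem sAt_epsSet {N : ℕ} (k : ℕ) (j : Fin N) (I : Finset (Fin N)) :
    sAt N k j (epsSet I) =
      ∑ a ∈ I, (wE k ((j : ℕ) + 1) ((a : ℕ) + 1) - wE k (j : ℕ) ((a : ℕ) + 1)) := by
  have e1 : ∀ i : Fin N, ((epsSet I i : ℕ) : ℤ) = ∑ a ∈ I, if i ≤ a then 1 else 0 := by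
    intro i
    unfold epsSet
    rw [epsExp_apply, Finset.sum_filter]
    push_cast
    rw [← Finset.sum_filter_add_sum_filter_not univ (fun a => a ∈ I)]
    have h1 : univ.filter (fun a => a ∈ I) = I := by ext; simp
    have h0 : ∑ a ∈ univ.filter (fun a => ¬ a ∈ I),
        (if i ≤ a then (if a ∈ I then (1:ℤ) else 0) else 0) = 0 := by
      refine Finset.sum_eq_zero fun a ha => ?_
      have := (Finset.mem_filter.1 ha).2
      simp [this]
    rw [h0, add_zero, h1]
    refine Finset.sum_congr rfl fun a ha => ?_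
    simp [ha]
  unfold sAt
  simp only [e1]
  simp only [Finset.mul_sum]
  rw [Finset.sum_comm]
  refine Finset.sum_congr rfl fun a _ => ?_
  rw [← sum_extB_right, Finset.sum_filter]
  refine Finset.sum_congr rfl fun i _ => ?_
  split_ifs <;> simp

/-! ### the series `H = ∑ v^{-|I|} x^{ε_I}` -/

theorem Eser_epsSet {N k : ℕ} {I : Finset (Fin N)} (hI : Stable k I) (c : ℤ) :
    Eser N k c (epsSet I) = v ^ (c * (I.card : ℤ)) := by
  classical
  unfold Eser
  rw [Finset.sum_eq_single I]
  · rw [if_pos ⟨hI, rfl⟩]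
  · intro J _ hJ
    rw [if_neg]
    rintro ⟨-, h⟩
    exact hJ (epsSet_injective h)
  · simp

theorem Eser_ne_zero {N k : ℕ} {c : ℤ} {η : Fin N →₀ ℕ} (h : Eser N k c η ≠ 0) :
    ∃ I : Finset (Fin N), Stable k I ∧ epsSet I = η := by
  classical
  unfold Eser at h
  obtain ⟨I, -, hI⟩ := Finset.exists_ne_zero_of_sum_ne_zero h
  refine ⟨I, ?_⟩
  by_contra h0
  exact hI (if_neg h0)

/-- the pairing of `ε_a` with the first greedy vertices -/
theorem sum_wE_greedy_nonneg {N k d : ℕ} (a : Fin N) :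
    0 ≤ ∑ b ∈ greedy N k d, wE k ((a : ℕ) + 1) ((b : ℕ) + 1) := by
  classical
  have e1 : ∀ b : Fin N, wE k ((a : ℕ) + 1) ((b : ℕ) + 1) =
      (if (b : ℕ) < a ∧ (a : ℕ) ≤ b + k then 1 else 0) -
        (if (a : ℕ) < b ∧ (b : ℕ) ≤ a + k then 1 else 0) := by
    intro b
    unfold wE
    rw [if_neg (by omega)]
    split_ifs <;> omega
  simp only [e1, Finset.sum_sub_distrib]
  rw [← Finset.sum_filter, ← Finset.sum_filter]
  simp only [sum_const, nsmul_eq_mul, mul_one]
  rw [sub_nonneg]
  norm_cast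
  refine Finset.card_le_card_of_injOn
    (fun b : Fin N => (⟨(b : ℕ) - (k + 1), by omega⟩ : Fin N)) ?_ ?_
  · intro b hb
    obtain ⟨hb1, hb2, hb3⟩ := Finset.mem_filter.1 hb
    obtain ⟨⟨c, hc⟩, hb5⟩ := mem_greedy.1 hb1
    have hc0 : c ≠ 0 := by
      rintro rfl
      omega
    obtain ⟨c', rfl⟩ := Nat.exists_eq_succ_of_ne_zero hc0
    have hb6 : (b : ℕ) - (k + 1) = (k + 1) * c' := by
      rw [hc, Nat.mul_succ]
      omega
    have hb7 : (k + 1) ≤ (b : ℕ) := by
      rw [hc, Nat.mul_succ]
      omega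
    refine Finset.mem_coe.2 (Finset.mem_filter.2 ⟨mem_greedy.2 ⟨?_, ?_⟩, ?_, ?_⟩)
    · simp only [hb6]
      exact Dvd.intro _ rfl
    · simp only [hb6]
      rw [hc, Nat.mul_div_cancel_left _ (by omega)] at hb5
      rw [Nat.mul_div_cancel_left _ (by omega)]
      omega
    · change (b : ℕ) - (k + 1) < a
      omega
    · change (a : ℕ) ≤ (b : ℕ) - (k + 1) + k
      omega
  · intro b hb b' hb' h
    obtain ⟨hb1, hb2, hb3⟩ := Finset.mem_filter.1 hb
    obtain ⟨hb1', hb2', hb3'⟩ := Finset.mem_filter.1 hb'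
    have h7 : ∀ x : Fin N, x ∈ greedy N k d → (a : ℕ) < x → (k + 1) ≤ (x : ℕ) := by
      intro x hx hax
      obtain ⟨⟨c, hc⟩, -⟩ := mem_greedy.1 hx
      have hc0 : c ≠ 0 := by
        rintro rfl
        omega
      obtain ⟨c', rfl⟩ := Nat.exists_eq_succ_of_ne_zero hc0
      rw [hc, Nat.mul_succ]
      omega
    have h8 := h7 b hb1 hb2
    have h9 := h7 b' hb1' hb2'
    have h10 : (b : ℕ) - (k + 1) = (b' : ℕ) - (k + 1) := by
      simpa using congrArg Fin.val h
    apply Fin.ext
    omega

variable {N k : ℕ}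

/-- the coefficient of `ϑ_{w_d}` in `H` -/
theorem al_greedy (T : ThetaData N k) (d : ℕ) :
    T.al (epsSet (greedy N k d)) (Eser N k (-1)) = v ^ (-1 * ((greedy N k d).card : ℤ)) := by
  rw [T.trace _ _ ?_, Eser_epsSet (stable_greedySet N k d)]
  intro η hη
  obtain ⟨I, -, rfl⟩ := Eser_ne_zero hη
  rw [omega_epsSet]
  exact Finset.sum_nonneg fun a _ => sum_wE_greedy_nonneg a

theorem pos_terms (T : ThetaData N k) (γ η : Fin N →₀ ℕ) :
    Pos (T.al γ (Eser N k (-1)) * T.th γ η) := (T.H_pos γ).mul (T.th_pos γ η)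

/-- the support of `ϑ_{w_d}` consists of exponents of `H` -/
theorem th_greedy_supp (T : ThetaData N k) (d : ℕ) {η : Fin N →₀ ℕ}
    (h : T.th (epsSet (greedy N k d)) η ≠ 0) :
    ∃ I : Finset (Fin N), Stable k I ∧ epsSet I = η := by
  apply Eser_ne_zero (c := -1)
  rw [T.expand (Eser N k (-1)) η]
  refine Pos.sum_ne_zero (fun γ _ => pos_terms T γ η)
    (i := epsSet (greedy N k d)) (Finset.mem_Iic.2 (T.th_supp _ _ h)) ?_
  rw [al_greedy]
  exact mul_ne_zero (zpow_ne_zero _ v_ne_zero) h

/-- one string: a vertex which can be moved down -/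
theorem string_step (hk : 1 ≤ k) (T : ThetaData N k) (d : ℕ) {I : Finset (Fin N)} {b b' : Fin N}
    (hI : Stable k I) (hb : b ∈ I) (hbb : (b' : ℕ) + 1 = b)
    (hmove : ∀ a ∈ I, a < b → (a : ℕ) + k < b')
    (h : T.th (epsSet (greedy N k d)) (epsSet (insert b' (I.erase b))) ≠ 0) :
    T.th (epsSet (greedy N k d)) (epsSet I) ≠ 0 := by
  have hb' : b' ∉ I := by
    intro h0
    have := hmove b' h0 (by rw [Fin.lt_def]; omega)
    omega
  rw [← epsSet_move hb hbb hb']
  refine T.string _ _ b (by omega) h ?_ 1 one_pos ?_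
  · intro η' hle hne heq
    by_contra h0
    obtain ⟨J, -, rfl⟩ := th_greedy_supp T d h0
    have h1 := epsSet_step J hbb
    have h2 := epsSet_step (insert b' (I.erase b)) hbb
    rw [if_pos (Finset.mem_insert_self _ _)] at h2
    have h3 := heq b' (by
      intro h4
      rw [h4] at hbb
      omega)
    have h4 : epsSet J b < epsSet (insert b' (I.erase b)) b := by
      refine lt_of_le_of_ne (hle b) fun h5 => hne ?_
      ext i
      by_cases hi : i = b
      · rw [hi, h5]
      · exact heq i hi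
    split_ifs at h1 <;> omega
  · rw [sAt_epsSet, Finset.sum_insert (fun h0 => hb' (Finset.mem_of_mem_erase h0))]
    have h1 : wE k ((b : ℕ) + 1) ((b' : ℕ) + 1) - wE k (b : ℕ) ((b' : ℕ) + 1) = 1 := by
      have h2 : wE k (b : ℕ) ((b' : ℕ) + 1) = 0 := by
        unfold wE
        rw [if_neg (by omega), if_neg (by omega), if_neg (by omega)]
      have h3 : wE k ((b : ℕ) + 1) ((b' : ℕ) + 1) = 1 := by
        unfold wE
        rw [if_neg (by omega), if_pos (by omega)]
      rw [h2, h3, sub_zero]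
    rw [h1, Finset.sum_eq_zero, add_zero, Nat.cast_one]
    intro a ha
    obtain ⟨hab, haI⟩ := Finset.mem_erase.1 ha
    rcases lt_trichotomy a b with h2 | h2 | h2
    · have h3 := hmove a haI h2
      unfold wE
      split_ifs <;> omega
    · exact absurd h2 hab
    · have h3 := hI b hb a haI h2
      unfold wE
      split_ifs <;> omega

/-- `ϑ_{w_d}` contains all `x^{ε_I}`, `I` stable with `d` elements -/
theorem th_greedy_ne_zero (hk : 1 ≤ k) (T : ThetaData N k) (d : ℕ) : ∀ n : ℕ,
    ∀ I : Finset (Fin N), Stable k I → I.card = d → ∑ a ∈ I, (a : ℕ) = n →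
      T.th (epsSet (greedy N k d)) (epsSet I) ≠ 0 := by
  intro n
  induction n using Nat.strong_induction_on with
  | _ n ih =>
    intro I hI hcard hn
    by_cases hstuck : ∀ b ∈ I, (b : ℕ) ≠ 0 → ∃ a ∈ I, (a : ℕ) + (k + 1) = b
    · have h1 := eq_greedy_of_stuck hI hstuck
      rw [hcard] at h1
      rw [← h1, T.th_self]
      exact one_ne_zero
    · push Not at hstuck
      obtain ⟨b, hb, hb0, hfree⟩ := hstuck
      let b' : Fin N := ⟨(b : ℕ) - 1, by omega⟩
      have hbb : (b' : ℕ) + 1 = b := by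
        change (b : ℕ) - 1 + 1 = b
        omega
      have hmove : ∀ a ∈ I, a < b → (a : ℕ) + k < b' := by
        intro a ha hab
        have h1 := hI a ha b hb hab
        have h2 := hfree a ha
        omega
      have hb' : b' ∉ I := by
        intro h0
        have := hmove b' h0 (by rw [Fin.lt_def]; omega)
        omega
      have hb'' : b' ∉ I.erase b := fun h0 => hb' (Finset.mem_of_mem_erase h0)
      refine string_step hk T d hI hb hbb hmove ?_
      refine ih (∑ a ∈ insert b' (I.erase b), (a : ℕ)) ?_ _ ?_ ?_ rfl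
      · rw [Finset.sum_insert hb'', ← hn, ← Finset.add_sum_erase I (fun a : Fin N => (a : ℕ)) hb]
        omega
      · intro x hx y hy hxy
        rcases Finset.mem_insert.1 hx with rfl | hx'
        · rcases Finset.mem_insert.1 hy with rfl | hy'
          · exact absurd hxy (lt_irrefl _)
          · obtain ⟨hyb, hyI⟩ := Finset.mem_erase.1 hy'
            have h1 : b < y := by
              refine lt_of_le_of_ne ?_ (Ne.symm hyb)
              rw [Fin.le_def]
              have : (b' : ℕ) < y := hxy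
              omega
            have h2 := hI b hb y hyI h1
            omega
        · obtain ⟨hxb, hxI⟩ := Finset.mem_erase.1 hx'
          rcases Finset.mem_insert.1 hy with rfl | hy'
          · refine hmove x hxI ?_
            have h1 : (x : ℕ) < b' := hxy
            rw [Fin.lt_def]
            omega
          · exact hI x hxI y (Finset.mem_of_mem_erase hy') hxy
      · rw [Finset.card_insert_of_notMem hb'', Finset.card_erase_of_mem hb, hcard]
        have : 0 < I.card := Finset.card_pos.2 ⟨b, hb⟩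
        omega

/-- the values of `ϑ_{w_d}` on the exponents of `H` -/
theorem th_greedy_eq (hk : 1 ≤ k) (T : ThetaData N k) {I : Finset (Fin N)} (hI : Stable k I) :
    T.th (epsSet (greedy N k I.card)) (epsSet I) = 1 ∧
      ∀ d, epsSet (greedy N k d) ≠ epsSet (greedy N k I.card) →
        T.th (epsSet (greedy N k d)) (epsSet I) = 0 := by
  classical
  have hne := th_greedy_ne_zero hk T I.card _ I hI rfl rfl
  have hcard : (greedy N k I.card).card = I.card := card_greedy fun l hl => stable_valid hI hl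
  have hmem : epsSet (greedy N k I.card) ∈ Finset.Iic (epsSet I) :=
    Finset.mem_Iic.2 (T.th_supp _ _ hne)
  have hexp := T.expand (Eser N k (-1)) (epsSet I)
  rw [Eser_epsSet hI, ← Finset.add_sum_erase _ _ hmem] at hexp
  have hal := al_greedy T I.card
  rw [hcard] at hal
  have hv : (v : K) ^ (-1 * (I.card : ℤ)) ≠ 0 := zpow_ne_zero _ v_ne_zero
  obtain ⟨h1, h2⟩ := Pos.add_eq_zpow (pos_terms T _ _)
    (Pos.sum fun γ _ => pos_terms T γ (epsSet I)) hexp.symm
    (by rw [hal]; exact mul_ne_zero hv hne)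
  refine ⟨?_, fun d hd => ?_⟩
  · rw [hal] at h1
    exact mul_left_cancel₀ hv (by rw [h1, mul_one])
  · by_contra h0
    have h3 := Pos.sum_eq_zero (fun γ _ => pos_terms T γ (epsSet I)) h2 (epsSet (greedy N k d))
      (Finset.mem_erase.2 ⟨hd, Finset.mem_Iic.2 (T.th_supp _ _ h0)⟩)
    rw [al_greedy] at h3
    exact mul_ne_zero (zpow_ne_zero _ v_ne_zero) h0 h3

end EkTh

open EkTh

variable {N k : ℕ}

/-- **B6 (a), first part**: `E_d` is the theta function of the greedy exponent. -/
theorem Ek_eq_th (hk : 1 ≤ k) (T : ThetaData N k) {d : ℕ} (hd : (d - 1) * (k + 1) < N ∨ d = 0) :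
    Ek N k d = T.th (epsExp (pExp k fun l => if l < d then 1 else 0)) := by
  classical
  rw [epsExp_pExp_eq]
  have hvalid : ∀ l < d, (k + 1) * l < N := by
    intro l hl
    rcases hd with hd | hd
    · have h1 : (k + 1) * l ≤ (k + 1) * (d - 1) := Nat.mul_le_mul_left _ (by omega)
      rw [mul_comm (d - 1)] at hd
      omega
    · omega
  have hcard := card_greedy hvalid
  funext η
  unfold Ek
  by_cases h : ∃ I : Finset (Fin N), Stable k I ∧ I.card = d ∧ epsSet I = η
  · rw [if_pos h]
    obtain ⟨I, hI, rfl, rfl⟩ := h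
    exact (th_greedy_eq hk T hI).1.symm
  · rw [if_neg h]
    by_contra h0
    obtain ⟨I, hI, rfl⟩ := th_greedy_supp T d (Ne.symm h0)
    have hdI : I.card ≠ d := fun h1 => h ⟨I, hI, h1, rfl⟩
    refine h0 ((th_greedy_eq hk T hI).2 d ?_).symm
    intro h1
    have h2 := congrArg Finset.card (epsSet_injective h1)
    rw [hcard, card_greedy fun l hl => stable_valid hI hl] at h2
    exact hdI h2.symm

/-- **B6 (a), second part**: otherwise `E_d = 0`. -/
theorem Ek_eq_zero {d : ℕ} (hd : ¬ ((d - 1) * (k + 1) < N ∨ d = 0)) : Ek N k d = 0 := by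
  classical
  push Not at hd
  funext η
  unfold Ek
  rw [if_neg]
  · rfl
  · rintro ⟨I, hI, rfl, -⟩
    have h1 := stable_valid hI (l := I.card - 1) (by omega)
    rw [mul_comm] at h1
    omega

end Vale.Agent.P066.Theta
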