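import Vale.Agent.P066.Theta.Ext
import Vale.Agent.P066.Theta.H615.Ring
import Vale.Agent.P066.Theta.H403.GProd

/-!
# The main identity (block B6(c))

`∏_i E(t_i) = ∑_ν e_ν(t) ϑ_{p_ν}`, coefficientwise in `x^η`.
-/

set_option autoImplicit false

open Finset

namespace Vale.Agent.P066.Theta

noncomputable section

open Classical in
/-- The coefficient of `x^η` in `∏_i E(t_i)` expanded through the theta functions. -/
theorem main_identity {N k : ℕ} (T : ThetaData N k) (M : ℕ)
    (hC : ∀ (μ : Fin M → ℕ) (γ : Fin N →₀ ℕ),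
      T.al γ ((List.ofFn fun i => Ek N k (μ i)).prod) =
        if IsC0 N k γ then ((List.ofFn fun i => Ek N k (μ i)).prod) γ else 0)
    (hG : ∀ (μ : Fin M → ℕ) (η : Fin N →₀ ℕ),
      ((List.ofFn fun i => Ek N k (μ i)).prod) η =
        MvPolynomial.coeff (Finsupp.equivFunOnFinite.symm μ) (G N k M η))
    (η : Fin N →₀ ℕ) :
    G N k M η = ∑ γ ∈ (Finset.Iic η).filter (IsC0 N k),
      MvPolynomial.C (T.th γ η) * G N k M γ := by
  ext m
  obtain ⟨μ, rfl⟩ : ∃ μ : Fin M → ℕ, m = Finsupp.equivFunOnFinite.symm μ :=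
    ⟨Finsupp.equivFunOnFinite m, by simp⟩
  rw [← hG, MvPolynomial.coeff_sum, Finset.sum_filter]
  refine (T.expand ((List.ofFn fun i => Ek N k (μ i)).prod) η).trans ?_
  refine Finset.sum_congr rfl fun γ _ => ?_
  rw [hC]
  by_cases h : IsC0 N k γ
  · rw [if_pos h, if_pos h, MvPolynomial.coeff_C_mul, ← hG, mul_comm]
  · rw [if_neg h, if_neg h, zero_mul]

open Classical in
/-- `main_identity` with the product formula of `H403/GProd` plugged in: the only input is the
trace formula for the products of the `E_d` (block S6b). -/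
theorem main_identity_of_class {N k : ℕ} (T : ThetaData N k) (M : ℕ)
    (hC : ∀ (μ : Fin M → ℕ) (γ : Fin N →₀ ℕ),
      T.al γ ((List.ofFn fun i => Ek N k (μ i)).prod) =
        if IsC0 N k γ then ((List.ofFn fun i => Ek N k (μ i)).prod) γ else 0)
    (η : Fin N →₀ ℕ) :
    G N k M η = ∑ γ ∈ (Finset.Iic η).filter (IsC0 N k),
      MvPolynomial.C (T.th γ η) * G N k M γ :=
  main_identity T M hC (fun μ η => prod_Ek_eq_coeff N k M μ η) η

end

end Vale.Agent.P066.Theta
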