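import Vale.Agent.P066.Theta.Ext

/-!
# The total weight of a partition exponent against a vertex is nonnegative

`∑_b p_λ(b) ω(ε_{a+1}, ε_{b+1}) ≥ 0` for every vertex `a` (used in S6b).
-/

set_option autoImplicit false

open Finset

namespace Vale.Agent.P066.Theta

namespace NetP

/-- The value of `ω(ε_{a+1}, ε_{b+1})` on vertices counted from `0`. -/
theorem wE_succ (k a b : ℕ) : wE k (a + 1) (b + 1) =
    if b < a ∧ a ≤ b + k then 1 else if a < b ∧ b ≤ a + k then -1 else 0 := by
  unfold wE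
  have h0 : ¬ (a + 1 = 0 ∨ b + 1 = 0) := by omega
  rw [if_neg h0]
  by_cases h1 : b < a ∧ a ≤ b + k
  · rw [if_pos h1, if_pos (by omega)]
  · rw [if_neg h1, if_neg (by omega)]
    by_cases h2 : a < b ∧ b ≤ a + k
    · rw [if_pos h2, if_pos (by omega)]
    · rw [if_neg h2, if_neg (by omega)]

end NetP

/-- The net weight of `p_λ` seen from a vertex `a`. -/
theorem sum_pExp_wE_nonneg {N k : ℕ} (lam : ℕ → ℕ) (hl : Antitone lam) (a : Fin N) :
    0 ≤ ∑ b : Fin N, (pExp (N := N) k lam b : ℤ) * wE k ((a : ℕ) + 1) ((b : ℕ) + 1) := by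
  classical
  set q : ℕ := (a : ℕ) / (k + 1) with hq
  set r : ℕ := (a : ℕ) % (k + 1) with hr
  have har : (a : ℕ) = (k + 1) * q + r := by rw [hq, hr]; exact (Nat.div_add_mod _ _).symm
  have hrk : r < k + 1 := Nat.mod_lt _ (Nat.succ_pos k)
  have haN : (a : ℕ) < N := a.2
  -- the terms
  have hterm : ∀ b : Fin N, (b : ℕ) ≠ (k + 1) * q → (b : ℕ) ≠ (k + 1) * (q + 1) →
      (pExp (N := N) k lam b : ℤ) * wE k ((a : ℕ) + 1) ((b : ℕ) + 1) = 0 := by
    intro b hb0 hb1
    by_cases hd : (k + 1) ∣ (b : ℕ)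
    · obtain ⟨m, hm⟩ := hd
      have hmq : m ≠ q := by rintro rfl; exact hb0 hm
      have hmq1 : m ≠ q + 1 := by rintro rfl; exact hb1 hm
      have hw : wE k ((a : ℕ) + 1) ((b : ℕ) + 1) = 0 := by
        rw [NetP.wE_succ]
        rcases lt_or_gt_of_ne hmq with h | h
        · have h1 : (k + 1) * (m + 1) ≤ (k + 1) * q := Nat.mul_le_mul_left _ h
          rw [Nat.mul_succ] at h1
          rw [if_neg (by omega), if_neg (by omega)]
        · have h1 : (k + 1) * (q + 2) ≤ (k + 1) * m := Nat.mul_le_mul_left _ (by omega)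
          have h2 : (k + 1) * (q + 2) = (k + 1) * q + 2 * (k + 1) := by ring
          rw [if_neg (by omega), if_neg (by omega)]
      rw [hw, mul_zero]
    · have h0 : pExp (N := N) k lam b = 0 := by
        unfold pExp; rw [if_neg hd]
      rw [h0]; simp
  have hval : ∀ (b : Fin N) (m : ℕ), (b : ℕ) = (k + 1) * m → pExp (N := N) k lam b = lam m := by
    intro b m hb
    unfold pExp
    rw [if_pos ⟨m, hb⟩, hb, Nat.mul_div_cancel_left _ (Nat.succ_pos k)]
  have hb0N : (k + 1) * q < N := by omega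
  let b0 : Fin N := ⟨(k + 1) * q, hb0N⟩
  have hq1 : (k + 1) * (q + 1) = (k + 1) * q + (k + 1) := by ring
  by_cases hb1N : (k + 1) * (q + 1) < N
  · let b1 : Fin N := ⟨(k + 1) * (q + 1), hb1N⟩
    have hne : b0 ≠ b1 := by
      intro h
      have := congrArg Fin.val h
      simp only [b0, b1] at this
      omega
    have hsum : ∑ b : Fin N, (pExp (N := N) k lam b : ℤ) * wE k ((a : ℕ) + 1) ((b : ℕ) + 1) =
        ∑ b ∈ ({b0, b1} : Finset (Fin N)),
          (pExp (N := N) k lam b : ℤ) * wE k ((a : ℕ) + 1) ((b : ℕ) + 1) := by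
      symm
      refine Finset.sum_subset (Finset.subset_univ _) ?_
      intro b _ hb
      simp only [Finset.mem_insert, Finset.mem_singleton, not_or] at hb
      refine hterm b ?_ ?_
      · intro h; exact hb.1 (Fin.ext h)
      · intro h; exact hb.2 (Fin.ext h)
    rw [hsum, Finset.sum_pair hne, hval b0 q rfl, hval b1 (q + 1) rfl, NetP.wE_succ, NetP.wE_succ]
    have hll : lam (q + 1) ≤ lam q := hl (Nat.le_succ q)
    simp only [b0, b1]
    by_cases hr0 : r = 0
    · rw [if_neg (by omega), if_neg (by omega), if_neg (by omega), if_neg (by omega)]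
      simp
    · rw [if_pos (by omega), if_neg (by omega), if_pos (by omega)]
      have : (lam (q + 1) : ℤ) ≤ (lam q : ℤ) := by exact_mod_cast hll
      linarith
  · have hsum : ∑ b : Fin N, (pExp (N := N) k lam b : ℤ) * wE k ((a : ℕ) + 1) ((b : ℕ) + 1) =
        (pExp (N := N) k lam b0 : ℤ) * wE k ((a : ℕ) + 1) ((b0 : ℕ) + 1) := by
      refine Finset.sum_eq_single b0 ?_ (by simp)
      intro b _ hb
      refine hterm b ?_ ?_
      · intro h; exact hb (Fin.ext h)
      · intro h; exact hb1N (h ▸ b.2)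
    rw [hsum, NetP.wE_succ]
    simp only [b0]
    by_cases hr0 : r = 0
    · rw [if_neg (by omega), if_neg (by omega)]
      simp
    · rw [if_pos (by omega)]
      positivity

end Vale.Agent.P066.Theta
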